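import Vale.Agent.P260Z.Ob.Coh.Main
import Vale.Agent.P215Z.Frm.Poin

/-!
# P260, obstruction, the Poincare lemma for the pair of regions
-/

noncomputable section
set_option linter.unusedSectionVars false
variable [Vale.Agent.P215Z.K.Geom]
namespace Vale.Agent.P215Z.K
open MvPolynomial Classical
variable {O : Type} [CommRing O] [Algebra ℚ O]

theorem cx_KS (N : ℕ) : Cx (KS N) := fun p hp k c hk =>
  ⟨⟨cx_Kof _ p hp.1.1 k c hk, cx_Kof _ p hp.1.2 k c hk⟩, cx_Kof _ p hp.2 k c hk⟩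

theorem KB_update {N : ℕ} {p : Pt} (hp : p ∈ KB N) : Function.update p 3 0 ∈ KB N := by
  obtain ⟨q, ⟨⟨h1, h2⟩, h3⟩, h4⟩ := hp
  have h5 : (N : ℤ) * 0 ≤ q 3 ∧ q 3 < N * 3 := Gx.hi_three ▸ h1 3
  have h6 := Gx.cave_three
  have h7 : ∀ i : Kl, org (i, false) 3 = 0 := fun i => Gx.org_three _
  refine ⟨Function.update q 3 0, ⟨⟨(Poin.inBox rfl Gx.hi_three (by omega) h5.2).2 h1, fun c hc h =>
    h2 c hc ((Poin.inBox (h6 c hc).1 (h6 c hc).2 (by omega) h5.2).1 h)⟩, fun i h =>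
    h3 i ((Poin.inBox (h7 i) (by rw [Pi.add_apply, h7]; rfl) (by omega) h5.2).1 h)⟩, fun j => ?_⟩
  by_cases h : j = 3
  · subst h
    simp [cell]
  · simpa [cell, Function.update_of_ne h] using h4 j

open Poin

variable {b k : Ideal O}

theorem p2_pair {N : ℕ} (hN : 0 < N) {e e' : F2 O} (he : Good2 (KR N) e) (he' : Good2 (KB N) e')
    (hi : Inv2 e') (hag : Agree2 (KS N) e e') (h1 : In2 (KR N) k e) (h1' : In2 (KB N) k e')
    (h2 : In3 (KR N) b (dd2 e)) (h2' : In3 (KB N) b (dd2 e')) :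
    ∃ η η' : F1 O, Good1 (KR N) η ∧ Good1 (KB N) η' ∧ Inv1 η' ∧ Agree1 (KS N) η η' ∧
      In1 (KR N) k η ∧ In1 (KB N) k η' ∧ In2 (KR N) b (e - dd1 η) ∧
      In2 (KB N) b (e' - dd1 η') := by
  have cR : Cx (KR N) := cx_Kof _
  have cB : Cx (KB N) := cx_Kof _
  obtain ⟨η, η', f1, f2, f3, f4, f5, f6⟩ := Coh.pair_H2 (O := O) hN k b _ _ (is2 cR he) (is2 cB he')
    (tr2_mem h1) (tr2_mem h1') (d2_mem cR he h2) (d2_mem cB he' h2')
    (fun p hp i j => by
      have h3 : tr2 (KB N) e' p i j = tr2 (KB N) e' (Coh.bot p) i j := by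
        have h4 : Coh.bot p ∈ KB N := KB_update hp
        by_cases h : i = 3 ∨ j = 3
        · simp only [tr2, hi p i j, hi (Coh.bot p) i j, if_pos h, ite_self]
        · have h5 := not_or.1 h
          simp only [tr2, hp, true_and, hi p i j, if_neg h, Coh.bot,
            Function.update_of_ne h5.1, Function.update_of_ne h5.2]
          simp only [show Function.update p 3 0 ∈ KB N from h4, true_and]
      rw [h3, sub_self]
      exact Submodule.zero_mem _)
    fun p hp i j => by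
      have h3 : tr2 (KR N) e p i j = tr2 (KB N) e' p i j := by
        simp only [tr2, hp.1.1, hp.1.2, true_and]
        split_ifs with h
        · exact hag p hp i j h.1 h.2
        · rfl
      rw [h3, sub_self]
      exact Submodule.zero_mem _
  obtain ⟨ζ, hζ⟩ : ∃ ζ : F1 O, ∀ p i, ζ p i = if i = 3 then 0 else η' (Coh.bot p) i :=
    ⟨_, fun _ _ => rfl⟩
  have e1 : ∀ p ∈ KB N, ζ p = η' p := fun p hp => funext fun i => by
    rw [hζ, f3 p hp]
    split_ifs with h
    · subst h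
      exact ((f2.cmp 3).zero _ (KB_update hp) 3 (by simp) (by simp)).symm
    · rfl
  have g2 := good1 f2.cmp
  refine ⟨η, ζ, good1 f1.cmp, ⟨fun p hp i j a c => ?_, fun p hp j c i a d f => ?_⟩, fun p i => ?_,
    fun p hp i _ => ?_, fun p _ i _ => f1.mem p i, fun p hp i _ => ?_, in2 f5,
    fun p hp i j a c => ?_⟩
  · rw [e1 p hp]
    exact g2.indep p hp i j a c
  · rw [e1 p hp, e1 _ (cB p hp j c a)]
    exact g2.compat p hp j c i a d f
  · rw [hζ, hζ]
    split_ifs
    · rfl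
    · rw [Coh.bot, Coh.bot, Function.update_idem]
  · rw [e1 p hp.1.2, f4 p hp]
  · rw [e1 p hp]
    exact f2.mem p i
  · have h3 := in2 f6 p hp i j a c
    simp only [Pi.sub_apply, dd1, e1 p hp] at h3 ⊢
    exact h3

end Vale.Agent.P215Z.K
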